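import Vale.Agent.P032.H766.IsoFr

/-!
# P032, isolated switching direction: the base clauses

Every clause of the list in 766's format is `Good`.  `good_sub` : larger clauses are good.
-/

namespace Vale.Agent.P032.H283

open Vale.Agent.P032.H766.Iso

variable {T : ℕ → ℕ → Prop} {Q : ℕ → St → Prop}

/-! ### Codes -/

theorem cd_mod {k p d t S : ℕ} (hk : k < 8) : cd k p d t S % 8 = k := by unfold cd; omega

theorem cd_p {k p d t S : ℕ} (hk : k < 8) (hp : p < 16) : cd k p d t S / 8 % 16 = p := by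
  unfold cd; omega

theorem cd_d {k p d t S : ℕ} (hk : k < 8) (hp : p < 16) (hd : d < 8) : cd k p d t S / 128 % 8 = d := by
  unfold cd; omega

theorem cd_t {k p d t S : ℕ} (hk : k < 8) (hp : p < 16) (hd : d < 8) (ht : t < 2) :
    cd k p d t S / 1024 % 2 = t := by
  unfold cd; omega

theorem cd_S {k p d t S : ℕ} (hk : k < 8) (hp : p < 16) (hd : d < 8) (ht : t < 2) :
    cd k p d t S / 2048 = S := by
  unfold cd; omega

theorem P0 {p S : ℕ} (hp : p < 16) :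
    P T Q (cd 0 p 0 0 S) ↔ ∀ c < 6, S.testBit c = true → T p c := by
  unfold P
  simp only [cd_mod (show 0 < 8 by norm_num), cd_p (show 0 < 8 by norm_num) hp,
    cd_S (show 0 < 8 by norm_num) hp (show 0 < 8 by norm_num) (show 0 < 2 by norm_num)]

theorem P1 {p S : ℕ} (hp : p < 16) :
    P T Q (cd 1 p 0 0 S) ↔ (∃ t < 2, ∃ σ, Q t σ ∧ ∃ d < 6, ∀ c < 6, σ p d c ↔ S.testBit c = true) ∧
      ∀ c < 6, S.testBit c = true → T p c := by
  unfold P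
  simp only [cd_mod (show 1 < 8 by norm_num), cd_p (show 1 < 8 by norm_num) hp,
    cd_S (show 1 < 8 by norm_num) hp (show 0 < 8 by norm_num) (show 0 < 2 by norm_num)]

theorem P2 {p d t S : ℕ} (hp : p < 16) (hd : d < 8) (ht : t < 2) :
    P T Q (cd 2 p d t S) ↔ ∃ σ, Q t σ ∧ ∀ c < 6, S.testBit c = true → ¬ σ p d c := by
  unfold P
  simp only [cd_mod (show 2 < 8 by norm_num), cd_p (show 2 < 8 by norm_num) hp,
    cd_d (show 2 < 8 by norm_num) hp hd, cd_t (show 2 < 8 by norm_num) hp hd ht,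
    cd_S (show 2 < 8 by norm_num) hp hd ht]

theorem P3 {p d t S : ℕ} (hp : p < 16) (hd : d < 8) (ht : t < 2) :
    P T Q (cd 3 p d t S) ↔ ∃ σ, Q t σ ∧ ∀ c < 6, S.testBit c = true → σ p d c := by
  unfold P
  simp only [cd_mod (show 3 < 8 by norm_num), cd_p (show 3 < 8 by norm_num) hp,
    cd_d (show 3 < 8 by norm_num) hp hd, cd_t (show 3 < 8 by norm_num) hp hd ht,
    cd_S (show 3 < 8 by norm_num) hp hd ht]

theorem P4 {p S : ℕ} (hp : p < 16) :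
    P T Q (cd 4 p 0 0 S) ↔ ∃ t < 2, ∃ σ, Q t σ ∧ ∃ d < 6, ∀ c < 6, σ p d c → S.testBit c = true := by
  unfold P
  simp only [cd_mod (show 4 < 8 by norm_num), cd_p (show 4 < 8 by norm_num) hp,
    cd_S (show 4 < 8 by norm_num) hp (show 0 < 8 by norm_num) (show 0 < 2 by norm_num)]

theorem P5 {p S : ℕ} (hp : p < 16) :
    P T Q (cd 5 p 0 0 S) ↔ ∀ r ∈ regRow p, ∃ σ, Q r.2.2 σ ∧
      ∀ c < 6, S.testBit c = true → ¬ σ r.1 r.2.1 c := by
  unfold P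
  simp only [cd_mod (show 5 < 8 by norm_num), cd_p (show 5 < 8 by norm_num) hp,
    cd_S (show 5 < 8 by norm_num) hp (show 0 < 8 by norm_num) (show 0 < 2 by norm_num)]

theorem L_pos {n : ℕ} : L T Q (2 * n) ↔ P T Q n := by
  unfold L
  rw [if_pos (by omega), show 2 * n / 2 = n by omega]

theorem L_neg {n : ℕ} : L T Q (2 * n + 1) ↔ ¬ P T Q n := by
  unfold L
  rw [if_neg (by omega), show (2 * n + 1) / 2 = n by omega]

theorem good_sub {C C' : List ℕ} (h : Good C) (hs : ∀ l ∈ C, l ∈ C') : Good C' := fun T Q hF => by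
  obtain ⟨l, hl, hL⟩ := h T Q hF
  exact ⟨l, hs l hl, hL⟩

/-- a two-literal clause `not x or y` -/
theorem good_imp {x y : ℕ} (h : ∀ T Q, Fr T Q → P T Q x → P T Q y) : Good [2 * x + 1, 2 * y] :=
  fun T Q hF => by
    by_cases hx : P T Q x
    · exact ⟨2 * y, by simp, L_pos.2 (h T Q hF hx)⟩
    · exact ⟨2 * x + 1, by simp, L_neg.2 hx⟩

/-- a two-literal clause `not x or not y` -/
theorem good_not {x y : ℕ} (h : ∀ T Q, Fr T Q → P T Q x → P T Q y → False) :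
    Good [2 * x + 1, 2 * y + 1] :=
  fun T Q hF => by
    by_cases hx : P T Q x
    · exact ⟨2 * y + 1, by simp, L_neg.2 (h T Q hF hx)⟩
    · exact ⟨2 * x + 1, by simp, L_neg.2 hx⟩

/-! ### Monotonicity -/

theorem good_D {p d t S S' : ℕ} (hp : p < 16) (hd : d < 8) (ht : t < 2)
    (hS : ∀ c < 6, S'.testBit c = true → S.testBit c = true) :
    Good [2 * cd 2 p d t S + 1, 2 * cd 2 p d t S'] := by
  refine good_imp fun T Q _ h => ?_
  rw [P2 hp hd ht] at h ⊢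
  obtain ⟨σ, hσ, h1⟩ := h
  exact ⟨σ, hσ, fun c hc hc' => h1 c hc (hS c hc hc')⟩

theorem good_K {p d t S S' : ℕ} (hp : p < 16) (hd : d < 8) (ht : t < 2)
    (hS : ∀ c < 6, S'.testBit c = true → S.testBit c = true) :
    Good [2 * cd 3 p d t S + 1, 2 * cd 3 p d t S'] := by
  refine good_imp fun T Q _ h => ?_
  rw [P3 hp hd ht] at h ⊢
  obtain ⟨σ, hσ, h1⟩ := h
  exact ⟨σ, hσ, fun c hc hc' => h1 c hc (hS c hc hc')⟩

theorem good_A {p S S' : ℕ} (hp : p < 16)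
    (hS : ∀ c < 6, S.testBit c = true → S'.testBit c = true) :
    Good [2 * cd 4 p 0 0 S + 1, 2 * cd 4 p 0 0 S'] := by
  refine good_imp fun T Q _ h => ?_
  rw [P4 hp] at h ⊢
  obtain ⟨t, ht, σ, hσ, d, hd, h1⟩ := h
  exact ⟨t, ht, σ, hσ, d, hd, fun c hc hc' => hS c hc (h1 c hc hc')⟩

/-- also useful: the literal `T(p, S)` splits -/
theorem good_T {p S S' : ℕ} (hp : p < 16)
    (hS : ∀ c < 6, S'.testBit c = true → S.testBit c = true) :
    Good [2 * cd 0 p 0 0 S + 1, 2 * cd 0 p 0 0 S'] := by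
  refine good_imp fun T Q _ h => ?_
  rw [P0 hp] at h ⊢
  exact fun c hc hc' => h c hc (hS c hc hc')

/-! ### Two states -/

set_option maxRecDepth 4000 in
theorem in_lt : ∀ r ∈ inRows, r.1 < 7 ∧ r.2.1 < 6 ∧ r.2.2 < 7 := by decide

set_option maxRecDepth 10000 in
theorem av_lt : ∀ r ∈ avRows, r.1 < 7 ∧ r.2.1 < 6 ∧ r.2.2.1 < 2 ∧ r.2.2.2.1 < 7 ∧
    r.2.2.2.2.1 < 6 ∧ r.2.2.2.2.2 < 2 := by decide

set_option maxRecDepth 10000 in
theorem reg_lt : ∀ g < 12, ∀ r ∈ regRow g, r.1 < 7 ∧ r.2.1 < 6 ∧ r.2.2 < 2 := by decide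

theorem good_r7 {r : ℕ × ℕ × ℕ} (hr : r ∈ inRows) {t S : ℕ} (ht : t < 2) :
    Good [2 * cd 4 r.2.2 0 0 S + 1, 2 * cd 3 r.1 r.2.1 t S + 1] := by
  obtain ⟨h1, h2, h3⟩ := in_lt r hr
  refine good_not fun T Q hF ha hk => ?_
  rw [P4 (by omega)] at ha
  rw [P3 (by omega) (by omega) ht] at hk
  obtain ⟨t', ht', σ', hσ', d, hd, ha⟩ := ha
  obtain ⟨σ, hσ, hk⟩ := hk
  obtain ⟨c, hc, h4, h5⟩ := hF.r7 r hr t ht t' ht' σ σ' hσ hσ' d hd
  exact h5 (hk c hc (ha c hc h4))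

theorem good_av {r : ℕ × ℕ × ℕ × ℕ × ℕ × ℕ} (hr : r ∈ avRows) {S : ℕ} :
    Good [2 * cd 3 r.1 r.2.1 r.2.2.1 S + 1, 2 * cd 2 r.2.2.2.1 r.2.2.2.2.1 r.2.2.2.2.2 S] := by
  obtain ⟨h1, h2, h3, h4, h5, h6⟩ := av_lt r hr
  refine good_imp fun T Q hF hk => ?_
  rw [P3 (by omega) (by omega) h3] at hk
  rw [P2 (by omega) (by omega) h6]
  obtain ⟨σ, hσ, hk⟩ := hk
  obtain ⟨σ', hσ', h7⟩ := hF.s12 r hr σ hσ
  exact ⟨σ', hσ', fun c hc hc' => h7 c hc (hk c hc hc')⟩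

/-! ### Regions -/

theorem testBit_one {a c : ℕ} : (1 <<< a).testBit c = true ↔ c = a := by
  rw [Nat.one_shiftLeft, Nat.testBit_two_pow]
  simp [eq_comm]

theorem good_s3 {a : ℕ} (ha : a < 5) :
    Good ((List.range 12).map fun g => 2 * cd 5 g 0 0 (1 <<< a)) := fun T Q hF => by
  obtain ⟨g, hg, h1⟩ := hF.s3 a ha
  refine ⟨2 * cd 5 g 0 0 (1 <<< a), List.mem_map.2 ⟨g, List.mem_range.2 hg, rfl⟩, ?_⟩
  rw [L_pos, P5 (by omega)]
  intro r hr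
  obtain ⟨σ, hσ, h2⟩ := h1 r hr
  refine ⟨σ, hσ, fun c _ hc => ?_⟩
  rw [testBit_one] at hc
  rw [hc]; exact h2

theorem good_reg {g : ℕ} (hg : g < 12) {r : ℕ × ℕ × ℕ} (hr : r ∈ regRow g) {S : ℕ} :
    Good [2 * cd 5 g 0 0 S + 1, 2 * cd 2 r.1 r.2.1 r.2.2 S] := by
  obtain ⟨h1, h2, h3⟩ := reg_lt g hg r hr
  refine good_imp fun T Q _ h => ?_
  rw [P5 (by omega)] at h
  rw [P2 (by omega) (by omega) h3]
  exact h r hr

/-! ### Exact letters -/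

theorem good_EE {p S S' : ℕ} (hp : p < 7) (hS : S &&& S' = 0) :
    Good [2 * cd 1 p 0 0 S + 1, 2 * cd 1 p 0 0 S' + 1] := by
  refine good_not fun T Q hF h h' => ?_
  rw [P1 (by omega)] at h h'
  obtain ⟨⟨t, ht, σ, hσ, d, hd, h1⟩, h2⟩ := h
  obtain ⟨⟨t', ht', σ', hσ', d', hd', h1'⟩, h2'⟩ := h'
  obtain ⟨c, hc, h3, h4⟩ := hF.biex t ht t' ht' σ σ' hσ hσ' p hp d hd d' hd'
    (fun c hc h5 => h2 c hc ((h1 c hc).1 h5)) (fun c hc h5 => h2' c hc ((h1' c hc).1 h5))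
  have h5 := (h1 c hc).1 h3
  have h6 := (h1' c hc).1 h4
  have h7 : (S &&& S').testBit c = true := by rw [Nat.testBit_and, h5, h6]; rfl
  rw [hS] at h7
  simp at h7

theorem good_ET {p S c : ℕ} (hp : p < 16) (hc : c < 6) (hS : S.testBit c = true) :
    Good [2 * cd 1 p 0 0 S + 1, 2 * cd 0 p 0 0 (1 <<< c)] := by
  refine good_imp fun T Q _ h => ?_
  rw [P1 hp] at h
  rw [P0 hp]
  intro c' _ h1
  rw [testBit_one] at h1
  rw [h1]; exact h.2 c hc hS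

theorem good_Egap {p S c0 : ℕ} (hp : p < 7) (hc0 : c0 < 6) :
    Good ((2 * cd 1 p 0 0 S + 1) :: ((List.range 6).filter fun c => !(S.testBit c) && !(c == c0)).map
      fun c => 2 * cd 0 p 0 0 (1 <<< c)) := fun T Q hF => by
  by_cases h : P T Q (cd 1 p 0 0 S)
  · have h0 := h
    rw [P1 (by omega)] at h
    obtain ⟨⟨t, ht, σ, hσ, d, hd, h1⟩, h2⟩ := h
    obtain ⟨x, hx, hxc, h3, h4⟩ := hF.gap t ht σ hσ p hp d hd c0 hc0
    refine ⟨2 * cd 0 p 0 0 (1 <<< x), List.mem_cons.2 (Or.inr (List.mem_map.2 ⟨x,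
      List.mem_filter.2 ⟨List.mem_range.2 hx, ?_⟩, rfl⟩)), ?_⟩
    · have h5 : S.testBit x = false := by
        rw [Bool.eq_false_iff]
        intro h6
        exact h4 ((h1 x hx).2 h6)
      simp [h5, hxc]
    · rw [L_pos, P0 (by omega)]
      intro c _ h1
      rw [testBit_one] at h1
      rw [h1]; exact h3
  · exact ⟨_, List.mem_cons.2 (Or.inl rfl), L_neg.2 h⟩

theorem testBit_pair {a x c : ℕ} : (1 <<< a ||| 1 <<< x).testBit c = true ↔ c = a ∨ c = x := by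
  rw [Nat.testBit_or, Bool.or_eq_true, testBit_one, testBit_one]

/-- degree: `lit x` is `T(p, x)` or `not E(p, {a, x})`, for `x ≠ a, c0` -/
theorem good_deg {p a b c d c0 : ℕ} (hp : p < 7) (ha : a < 6) (hb : b < 6) (hc : c < 6) (hd : d < 6)
    (ab : a ≠ b) (ac : a ≠ c) (ad : a ≠ d) (bc : b ≠ c) (bd : b ≠ d) (cd' : c ≠ d) (lit : ℕ → ℕ)
    (hl : ∀ x < 6, x ≠ a → x ≠ c0 → lit x = 2 * cd 0 p 0 0 (1 <<< x) ∨
      lit x = 2 * cd 1 p 0 0 (1 <<< a ||| 1 <<< x) + 1) :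
    Good ([2 * cd 0 p 0 0 (1 <<< a) + 1, 2 * cd 0 p 0 0 (1 <<< b) + 1,
      2 * cd 0 p 0 0 (1 <<< c) + 1, 2 * cd 0 p 0 0 (1 <<< d) + 1] ++
      ((List.range 6).filter fun x => !(x == a) && !(x == c0)).map lit) := fun T Q hF => by
  have key : ∀ y, P T Q (cd 0 p 0 0 (1 <<< y)) → y < 6 → T p y := by
    intro y h hy
    rw [P0 (by omega)] at h
    exact h y hy (testBit_one.2 rfl)
  by_cases h1 : P T Q (cd 0 p 0 0 (1 <<< a))
  swap; · exact ⟨_, List.mem_append.2 (Or.inl (by simp)), L_neg.2 h1⟩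
  by_cases h2 : P T Q (cd 0 p 0 0 (1 <<< b))
  swap; · exact ⟨2 * cd 0 p 0 0 (1 <<< b) + 1, List.mem_append.2 (Or.inl (by simp)), L_neg.2 h2⟩
  by_cases h3 : P T Q (cd 0 p 0 0 (1 <<< c))
  swap; · exact ⟨2 * cd 0 p 0 0 (1 <<< c) + 1, List.mem_append.2 (Or.inl (by simp)), L_neg.2 h3⟩
  by_cases h4 : P T Q (cd 0 p 0 0 (1 <<< d))
  swap; · exact ⟨2 * cd 0 p 0 0 (1 <<< d) + 1, List.mem_append.2 (Or.inl (by simp)), L_neg.2 h4⟩
  obtain ⟨x, hx, y, hy, hxa, hya, hxy, hTx, hTy, hE⟩ := hF.deg p hp a ha b hb c hc d hd ab ac ad bc bd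
    cd' (key a h1 ha) (key b h2 hb) (key c h3 hc) (key d h4 hd)
  have fin : ∀ w, w < 6 → w ≠ a → w ≠ c0 → T p w →
      (∀ t < 2, ∀ σ, Q t σ → ∀ j < 6, ¬ ∀ e < 6, σ p j e ↔ e = a ∨ e = w) →
      ∃ l ∈ ([2 * cd 0 p 0 0 (1 <<< a) + 1, 2 * cd 0 p 0 0 (1 <<< b) + 1,
      2 * cd 0 p 0 0 (1 <<< c) + 1, 2 * cd 0 p 0 0 (1 <<< d) + 1] ++
      ((List.range 6).filter fun x => !(x == a) && !(x == c0)).map lit), L T Q l := by
    intro w hw hwa hw0 hTw hEw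
    refine ⟨lit w, List.mem_append.2 (Or.inr (List.mem_map.2 ⟨w, List.mem_filter.2
      ⟨List.mem_range.2 hw, by simp [hwa, hw0]⟩, rfl⟩)), ?_⟩
    rcases hl w hw hwa hw0 with h5 | h5
    · rw [h5, L_pos, P0 (by omega)]
      intro c' _ h6
      rw [testBit_one] at h6
      rw [h6]; exact hTw
    · rw [h5, L_neg, P1 (by omega)]
      rintro ⟨⟨t, ht, σ, hσ, j, hj, h6⟩, -⟩
      exact hEw t ht σ hσ j hj fun e he => (h6 e he).trans testBit_pair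
  by_cases hx0 : x = c0
  · exact fin y hy hya (fun h => hxy (hx0.trans h.symm)) hTy fun t ht σ hσ j hj => (hE t ht σ hσ j hj).2
  · exact fin x hx hxa hx0 hTx fun t ht σ hσ j hj => (hE t ht σ hσ j hj).1

/-! ### Palettes -/

theorem good_z {c : ℕ} (hc : c < 5) : Good [2 * cd 0 0 0 0 (1 <<< c)] := fun T Q hF => by
  refine ⟨_, List.mem_cons.2 (Or.inl rfl), ?_⟩
  rw [L_pos, P0 (by norm_num)]
  intro c' hc' h1
  rw [testBit_one] at h1
  subst h1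
  exact (hF.z5 c' hc').2 (by omega)

theorem good_z5 : Good [2 * cd 0 0 0 0 (1 <<< 5) + 1] := fun T Q hF => by
  refine ⟨_, List.mem_cons.2 (Or.inl rfl), ?_⟩
  rw [L_neg, P0 (by norm_num)]
  intro h
  exact (hF.z5 5 (by norm_num)).1 (h 5 (by norm_num) (testBit_one.2 rfl)) rfl

theorem good_v5 {p : ℕ} (hp : p < 7) (h0 : p ≠ 0) : Good [2 * cd 0 p 0 0 (1 <<< 5)] := fun T Q hF => by
  refine ⟨_, List.mem_cons.2 (Or.inl rfl), ?_⟩
  rw [L_pos, P0 (by omega)]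
  intro c' _ h1
  rw [testBit_one] at h1
  subst h1
  exact hF.v5 p hp h0

theorem good_vn {p : ℕ} (hp : p < 7) : Good ((List.range 6).map fun c => 2 * cd 0 p 0 0 (1 <<< c) + 1) :=
  fun T Q hF => by
    obtain ⟨c, hc, h1⟩ := hF.vn p hp
    refine ⟨_, List.mem_map.2 ⟨c, List.mem_range.2 hc, rfl⟩, ?_⟩
    rw [L_neg, P0 (by omega)]
    exact fun h => h1 (h c hc (testBit_one.2 rfl))

end Vale.Agent.P032.H283
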