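import Vale.Agent.P032.H766.IsoFr
import Vale.Agent.P032.H89.SysI

/-!
# P032, isolated switching direction: from `SysI` to the system in numbers

`SysJ` : `SysI` with the fields which the certificate uses (no cusp addendum in `s3`, no row `K = k + 3`
in `s1`).  `no_sysJ` : if no system in numbers exists, then there is no `SysJ`, whatever the colour `m`.
-/

namespace Vale.Agent.P032.H283

open Vale.Agent.P032.H89 Vale.Agent.P032.H766.Iso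

/-- the fields of `SysI` which are used -/
structure SysJ (m : Fin 6) (N : Option (Fin 6) → Set (Fin 6)) (Q : Bool → Set State) : Prop where
  nz : N none = {m}ᶜ
  nv : ∀ k, m ∈ N (some k)
  nv' : ∀ k, ∃ c, c ∉ N (some k)
  ne : ∀ t, ∀ σ ∈ Q t, ∀ p j, (σ p j).Nonempty
  hex : ∀ t, ∀ σ ∈ Q t, ∀ p j, Disjoint (σ p j) (σ p (j + 1))
  inz : ∀ t, ∀ σ ∈ Q t, ∀ k, σ none k ⊆ N (some k)
  inv : ∀ t, ∀ σ ∈ Q t, ∀ k, σ (some k) (k + 3) ⊆ N none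
  inr : ∀ t, ∀ σ ∈ Q t, ∀ k, σ (some k) (k + 2) ⊆ N (some (k + 1))
  inl : ∀ t, ∀ σ ∈ Q t, ∀ k, σ (some k) (k - 2) ⊆ N (some (k - 1))
  two : ∀ t, ∀ σ ∈ Q t, ∀ p j, ∀ c ∈ σ p j, c ∈ N p → ∃ d ∈ σ p j, d ≠ c
  gap : ∀ t, ∀ σ ∈ Q t, ∀ p j c, ∃ d ∈ N p, d ∉ σ p j ∧ d ≠ c
  rz : ∀ t, ∀ σ ∈ Q t, ∀ k j, Disjoint (σ none j) (σ (some k) j)
  rv : ∀ t, ∀ σ ∈ Q t, ∀ k j, Disjoint (σ (some k) j) (σ (some (k + 1)) j)
  ty : ∀ t, ∀ σ ∈ Q t, ∀ j, m ∈ σ none j ↔ (Even j.val ↔ t = true)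
  ex : ∀ t, (Q t).Nonempty
  biex : ∀ t, ∀ σ ∈ Q t, ∀ t', ∀ σ' ∈ Q t', ∀ p j j', σ p j ⊆ N p → σ' p j' ⊆ N p →
    ¬ Disjoint (σ p j) (σ' p j')
  deg : ∀ p, 4 ≤ (N p).ncard → ∀ a ∈ N p, ∃ d e, d ∈ N p ∧ e ∈ N p ∧ d ≠ a ∧ e ≠ a ∧ d ≠ e ∧
    ∀ t, ∀ σ ∈ Q t, ∀ j, σ p j ≠ {a, d} ∧ σ p j ≠ {a, e}
  r7z : ∀ t, ∀ σ ∈ Q t, ∀ t', ∀ σ' ∈ Q t', ∀ k j, ¬ σ' (some k) j ⊆ σ none k
  r7v : ∀ t, ∀ σ ∈ Q t, ∀ t', ∀ σ' ∈ Q t', ∀ k j, ¬ σ' none j ⊆ σ (some k) (k + 3)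
  r7r : ∀ t, ∀ σ ∈ Q t, ∀ t', ∀ σ' ∈ Q t', ∀ k j, ¬ σ' (some (k + 1)) j ⊆ σ (some k) (k + 2)
  r7l : ∀ t, ∀ σ ∈ Q t, ∀ t', ∀ σ' ∈ Q t', ∀ k j, ¬ σ' (some (k - 1)) j ⊆ σ (some k) (k - 2)
  /-- each colour of the centre lives in a sector or in a cusp -/
  s3 : ∀ a, a ≠ m → ∃ I : Fin 6 → Prop, (∀ K, Cr Q K (I K) {a}) ∧
    ((∃ w, ∀ K, I K ↔ (K = w ∨ K = w + 1 ∨ K = w + 2)) ∨
    (∃ w, ∀ K, I K ↔ (K = w + 1 ∨ K = w + 2)))
  /-- whole letters of `V_k` at the centre -/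
  s1 : ∀ t, ∀ σ ∈ Q t, ∀ k K, K ≠ k → K ≠ k + 3 →
    Cr Q K (if t = true then K = k + 4 ∨ K = k + 5 else K = k + 1 ∨ K = k + 2)
      (σ (some k) (k + 3))
  /-- whole letters of `V_k` at `V_(k + 1)` -/
  s2r : ∀ t, ∀ σ ∈ Q t, ∀ k,
    Nn Q (some k) (k + 3) t (σ (some k) (k + 2)) ∧
    Nn Q (some (k - 1)) (k + 2) t (σ (some k) (k + 2)) ∧
    Nn Q (some (k + 2)) (k + 5) (!t) (σ (some k) (k + 2)) ∧
    Nn Q (some (k + 3)) (k + 6) (!t) (σ (some k) (k + 2)) ∧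
    Nn Q (some (k + 3)) (k + 1) t (σ (some k) (k + 2))
  /-- whole letters of `V_k` at `V_(k - 1)` -/
  s2l : ∀ t, ∀ σ ∈ Q t, ∀ k,
    Nn Q (some k) (k + 3) t (σ (some k) (k - 2)) ∧
    Nn Q (some (k + 1)) (k + 4) t (σ (some k) (k - 2)) ∧
    Nn Q (some (k - 2)) (k + 1) (!t) (σ (some k) (k - 2)) ∧
    Nn Q (some (k - 3)) k (!t) (σ (some k) (k - 2)) ∧
    Nn Q (some (k - 3)) (k - 1) t (σ (some k) (k - 2))

theorem SysJ.of {m : Fin 6} {N : Option (Fin 6) → Set (Fin 6)} {Q : Bool → Set State}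
    (h : H89.SysI m N Q) : SysJ m N Q :=
  { nz := h.nz, nv := h.nv, nv' := h.nv', ne := h.ne, hex := h.hex, inz := h.inz, inv := h.inv,
    inr := h.inr, inl := h.inl, two := h.two, gap := h.gap, rz := h.rz, rv := h.rv, ty := h.ty,
    ex := h.ex, biex := h.biex, deg := h.deg, r7z := h.r7z, r7v := h.r7v, r7r := h.r7r,
    r7l := h.r7l,
    s3 := fun a ha => by
      obtain ⟨I, h1, h2⟩ := h.s3 a ha
      refine ⟨I, h1, h2.imp id ?_⟩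
      rintro ⟨w, h3, -⟩
      exact ⟨w, h3⟩
    s1 := fun t σ hσ k K hK _ => h.s1 t σ hσ k K hK, s2r := h.s2r, s2l := h.s2l }

/-! ### Numbers -/

/-- the node with the number `p` -/
def nod (p : ℕ) : Option (Fin 6) := if p = 0 then none else some (Fin.ofNat 6 (p - 1))

/-- the slot with the number `j` -/
def slt (j : ℕ) : Fin 6 := Fin.ofNat 6 j

/-- the colour with the number `c`; the number of `m` is `5` -/
def col (m : Fin 6) (c : ℕ) : Fin 6 := Equiv.swap 5 m (Fin.ofNat 6 c)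

theorem col_five (m : Fin 6) : col m 5 = m := by
  unfold col; exact Equiv.swap_apply_left 5 m

theorem col_inj {m : Fin 6} {c d : ℕ} (hc : c < 6) (hd : d < 6) (h : col m c = col m d) : c = d := by
  unfold col at h
  have h1 := congrArg Fin.val ((Equiv.swap 5 m).injective h)
  simpa [Fin.ofNat, Nat.mod_eq_of_lt hc, Nat.mod_eq_of_lt hd] using h1

theorem col_surj (m x : Fin 6) : ∃ c < 6, col m c = x := by
  refine ⟨((Equiv.swap 5 m).symm x).val, ((Equiv.swap 5 m).symm x).isLt, ?_⟩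
  unfold col
  rw [← Equiv.eq_symm_apply]
  apply Fin.ext
  simp [Fin.ofNat]

/-- a state in numbers -/
def num (m : Fin 6) (σ : State) : St := fun p j c => col m c ∈ σ (nod p) (slt j)

/-- the palettes in numbers -/
def TT (m : Fin 6) (N : Option (Fin 6) → Set (Fin 6)) : ℕ → ℕ → Prop := fun p c => col m c ∈ N (nod p)

/-- the states in numbers -/
def QQ (m : Fin 6) (Q : Bool → Set State) : ℕ → St → Prop :=
  fun t τ => ∃ σ ∈ Q (t == 1), num m σ = τ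

/-! ### The tables -/

theorem in_rows : ∀ r ∈ inRows, ∃ k : Fin 6,
    (nod r.1 = none ∧ slt r.2.1 = k ∧ nod r.2.2 = some k) ∨
    (nod r.1 = some k ∧ slt r.2.1 = k + 3 ∧ nod r.2.2 = none) ∨
    (nod r.1 = some k ∧ slt r.2.1 = k + 2 ∧ nod r.2.2 = some (k + 1)) ∨
    (nod r.1 = some k ∧ slt r.2.1 = k - 2 ∧ nod r.2.2 = some (k - 1)) := by decide

set_option maxRecDepth 4000 in
theorem dis_rows : ∀ r ∈ disRows,
    (nod r.1 = nod r.2.2.1 ∧ (slt r.2.2.2 = slt r.2.1 + 1 ∨ slt r.2.1 = slt r.2.2.2 + 1)) ∨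
    (slt r.2.1 = slt r.2.2.2 ∧ ∃ k : Fin 6,
      (nod r.1 = none ∧ nod r.2.2.1 = some k) ∨ (nod r.1 = some k ∧ nod r.2.2.1 = none) ∨
      (nod r.1 = some k ∧ nod r.2.2.1 = some (k + 1)) ∨
      (nod r.1 = some (k + 1) ∧ nod r.2.2.1 = some k)) := by decide

/-- the shape of the rows of `avRows` -/
def AvP (r : ℕ × ℕ × ℕ × ℕ × ℕ × ℕ) (k : Fin 6) (t : Bool) : Prop :=
  nod r.1 = some k ∧ (r.2.2.1 == 1) = t ∧
  ((slt r.2.1 = k + 3 ∧ ∃ K : Fin 6, K ≠ k ∧ K ≠ k + 3 ∧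
      ((nod r.2.2.2.1 = some (K - 1) ∧ slt r.2.2.2.2.1 = K + 1 ∧ (r.2.2.2.2.2 == 1) =
          !(if t = true then decide (K = k + 4 ∨ K = k + 5) else decide (K = k + 1 ∨ K = k + 2))) ∨
       (nod r.2.2.2.1 = some (K + 1) ∧ slt r.2.2.2.2.1 = K - 1 ∧ (r.2.2.2.2.2 == 1) =
          (if t = true then decide (K = k + 4 ∨ K = k + 5) else decide (K = k + 1 ∨ K = k + 2))))) ∨
   (slt r.2.1 = k + 2 ∧
      ((nod r.2.2.2.1 = some k ∧ slt r.2.2.2.2.1 = k + 3 ∧ (r.2.2.2.2.2 == 1) = t) ∨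
       (nod r.2.2.2.1 = some (k - 1) ∧ slt r.2.2.2.2.1 = k + 2 ∧ (r.2.2.2.2.2 == 1) = t) ∨
       (nod r.2.2.2.1 = some (k + 2) ∧ slt r.2.2.2.2.1 = k + 5 ∧ (r.2.2.2.2.2 == 1) = !t) ∨
       (nod r.2.2.2.1 = some (k + 3) ∧ slt r.2.2.2.2.1 = k + 6 ∧ (r.2.2.2.2.2 == 1) = !t) ∨
       (nod r.2.2.2.1 = some (k + 3) ∧ slt r.2.2.2.2.1 = k + 1 ∧ (r.2.2.2.2.2 == 1) = t))) ∨
   (slt r.2.1 = k - 2 ∧
      ((nod r.2.2.2.1 = some k ∧ slt r.2.2.2.2.1 = k + 3 ∧ (r.2.2.2.2.2 == 1) = t) ∨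
       (nod r.2.2.2.1 = some (k + 1) ∧ slt r.2.2.2.2.1 = k + 4 ∧ (r.2.2.2.2.2 == 1) = t) ∨
       (nod r.2.2.2.1 = some (k - 2) ∧ slt r.2.2.2.2.1 = k + 1 ∧ (r.2.2.2.2.2 == 1) = !t) ∨
       (nod r.2.2.2.1 = some (k - 3) ∧ slt r.2.2.2.2.1 = k ∧ (r.2.2.2.2.2 == 1) = !t) ∨
       (nod r.2.2.2.1 = some (k - 3) ∧ slt r.2.2.2.2.1 = k - 1 ∧ (r.2.2.2.2.2 == 1) = t))))

instance (r : ℕ × ℕ × ℕ × ℕ × ℕ × ℕ) (k : Fin 6) (t : Bool) : Decidable (AvP r k t) := by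
  unfold AvP; infer_instance

set_option maxRecDepth 10000 in
theorem av_rows : ∀ r ∈ avRows, ∃ k t, AvP r k t := by decide

set_option maxRecDepth 10000 in
theorem reg_rows : ∀ g < 12, ∀ r ∈ regRow g, ∃ K : Fin 6,
    (nod r.1 = some (K - 1) ∧ slt r.2.1 = K + 1 ∧ (r.2.2 == 1) = !(inReg g K.val)) ∨
    (nod r.1 = some (K + 1) ∧ slt r.2.1 = K - 1 ∧ (r.2.2 == 1) = inReg g K.val) := by decide

theorem inReg_sec : ∀ w K : Fin 6, inReg w.val K.val = true ↔ (K = w ∨ K = w + 1 ∨ K = w + 2) := by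
  decide

theorem inReg_cusp : ∀ w K : Fin 6, inReg (6 + w.val) K.val = true ↔ (K = w + 1 ∨ K = w + 2) := by
  decide

theorem ty_rows : ∀ t < 2, ∀ j < 6, ((Even (slt j).val ↔ (t == 1) = true) ↔ (j + t) % 2 = 1) := by
  decide

theorem nod_zero : nod 0 = none := rfl

theorem nod_pos {p : ℕ} (h : p ≠ 0) : ∃ k, nod p = some k := ⟨_, if_neg h⟩

theorem sub_of {m : Fin 6} {A B : Set (Fin 6)} (h : ∀ c < 6, col m c ∈ A → col m c ∈ B) : A ⊆ B := by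
  intro x hx
  obtain ⟨c, hc, rfl⟩ := col_surj m x
  exact h c hc hx

theorem four_le {m : Fin 6} {A : Set (Fin 6)} {a b c d : ℕ} (ha : a < 6) (hb : b < 6) (hc : c < 6)
    (hd : d < 6) (ab : a ≠ b) (ac : a ≠ c) (ad : a ≠ d) (bc : b ≠ c) (bd : b ≠ d) (cd : c ≠ d)
    (h1 : col m a ∈ A) (h2 : col m b ∈ A) (h3 : col m c ∈ A) (h4 : col m d ∈ A) : 4 ≤ A.ncard := by
  have hab : col m a ≠ col m b := fun h => ab (col_inj ha hb h)
  have hac : col m a ≠ col m c := fun h => ac (col_inj ha hc h)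
  have had : col m a ≠ col m d := fun h => ad (col_inj ha hd h)
  have hbc : col m b ≠ col m c := fun h => bc (col_inj hb hc h)
  have hbd : col m b ≠ col m d := fun h => bd (col_inj hb hd h)
  have hcd : col m c ≠ col m d := fun h => cd (col_inj hc hd h)
  have hs : ({col m a, col m b, col m c, col m d} : Set (Fin 6)) ⊆ A := by
    rintro x (rfl | rfl | rfl | rfl)
    exacts [h1, h2, h3, h4]
  have hn : ({col m a, col m b, col m c, col m d} : Set (Fin 6)).ncard = 4 := by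
    rw [Set.ncard_insert_of_notMem (by simp [hab, hac, had]),
      Set.ncard_insert_of_notMem (by simp [hbc, hbd]), Set.ncard_pair hcd]
  rw [← hn]
  exact Set.ncard_le_ncard hs (Set.toFinite _)

variable {m : Fin 6} {N : Option (Fin 6) → Set (Fin 6)} {Q : Bool → Set State}

/-- a state disjoint from a letter, in numbers -/
theorem nn_num {p : ℕ} {d : ℕ} {t : ℕ} {k : Option (Fin 6)} {j : Fin 6} {b : Bool} {W : Set (Fin 6)}
    (hp : nod p = k) (hd : slt d = j) (ht : (t == 1) = b) (h : Nn Q k j b W) :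
    ∃ τ, QQ m Q t τ ∧ ∀ c, col m c ∈ W → ¬ τ p d c := by
  subst hp hd ht
  obtain ⟨σ, hσ, hdis⟩ := h
  exact ⟨num m σ, ⟨σ, hσ, rfl⟩, fun c hc hc' => Set.disjoint_left.1 hdis hc' hc⟩

/-- **The bridge.** -/
theorem SysJ.fr (h : SysJ m N Q) : Fr (TT m N) (QQ m Q) where
  z5 := fun c hc => by
    unfold TT
    rw [nod_zero, h.nz, Set.mem_compl_iff, Set.mem_singleton_iff]
    refine not_congr ⟨fun h1 => ?_, fun h1 => ?_⟩
    · exact col_inj (m := m) hc (by norm_num) (h1.trans (col_five m).symm)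
    · rw [h1]; exact col_five m
  v5 := fun p _ hp => by
    obtain ⟨k, hk⟩ := nod_pos hp
    unfold TT
    rw [col_five, hk]; exact h.nv k
  vn := fun p _ => by
    by_cases hp : p = 0
    · subst hp
      refine ⟨5, by norm_num, ?_⟩
      unfold TT
      rw [nod_zero, h.nz, col_five]; simp
    · obtain ⟨k, hk⟩ := nod_pos hp
      obtain ⟨x, hx⟩ := h.nv' k
      obtain ⟨c, hc, rfl⟩ := col_surj m x
      exact ⟨c, hc, by unfold TT; rw [hk]; exact hx⟩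
  some_ := fun t _ => by
    obtain ⟨σ, hσ⟩ := h.ex (t == 1)
    exact ⟨_, σ, hσ, rfl⟩
  ne := by
    rintro t - _ ⟨σ, hσ, rfl⟩ p - j -
    obtain ⟨x, hx⟩ := h.ne _ σ hσ (nod p) (slt j)
    obtain ⟨c, hc, rfl⟩ := col_surj m x
    exact ⟨c, hc, hx⟩
  dis := by
    rintro r hr t - _ ⟨σ, hσ, rfl⟩ c - h1 h2
    have h1 : col m c ∈ σ (nod r.1) (slt r.2.1) := h1
    have h2 : col m c ∈ σ (nod r.2.2.1) (slt r.2.2.2) := h2
    rcases dis_rows r hr with ⟨e1, e2 | e2⟩ | ⟨e1, k, ⟨e2, e3⟩ | ⟨e2, e3⟩ | ⟨e2, e3⟩ | ⟨e2, e3⟩⟩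
    · rw [← e1, e2] at h2
      exact Set.disjoint_left.1 (h.hex _ σ hσ _ _) h1 h2
    · rw [← e1] at h2
      rw [e2] at h1
      exact Set.disjoint_left.1 (h.hex _ σ hσ _ _) h2 h1
    · rw [e2] at h1; rw [← e1, e3] at h2
      exact Set.disjoint_left.1 (h.rz _ σ hσ k _) h1 h2
    · rw [e2] at h1; rw [← e1, e3] at h2
      exact Set.disjoint_left.1 (h.rz _ σ hσ k _) h2 h1
    · rw [e2] at h1; rw [← e1, e3] at h2
      exact Set.disjoint_left.1 (h.rv _ σ hσ k _) h1 h2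
    · rw [e2] at h1; rw [← e1, e3] at h2
      exact Set.disjoint_left.1 (h.rv _ σ hσ k _) h2 h1
  inn := by
    rintro r hr t - _ ⟨σ, hσ, rfl⟩ c - h1
    have h1 : col m c ∈ σ (nod r.1) (slt r.2.1) := h1
    change col m c ∈ N (nod r.2.2)
    obtain ⟨k, ⟨e1, e2, e3⟩ | ⟨e1, e2, e3⟩ | ⟨e1, e2, e3⟩ | ⟨e1, e2, e3⟩⟩ := in_rows r hr
    · rw [e1, e2] at h1; rw [e3]; exact h.inz _ σ hσ k h1
    · rw [e1, e2] at h1; rw [e3]; exact h.inv _ σ hσ k h1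
    · rw [e1, e2] at h1; rw [e3]; exact h.inr _ σ hσ k h1
    · rw [e1, e2] at h1; rw [e3]; exact h.inl _ σ hσ k h1
  two := by
    rintro t - _ ⟨σ, hσ, rfl⟩ p - j - c hc h1 h2
    obtain ⟨x, hx, hxc⟩ := h.two _ σ hσ (nod p) (slt j) (col m c) h1 h2
    obtain ⟨d, hd, rfl⟩ := col_surj m x
    exact ⟨d, hd, fun hdc => hxc (by rw [hdc]), hx⟩
  gap := by
    rintro t - _ ⟨σ, hσ, rfl⟩ p - j - c hc
    obtain ⟨x, hx, hx', hxc⟩ := h.gap _ σ hσ (nod p) (slt j) (col m c)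
    obtain ⟨d, hd, rfl⟩ := col_surj m x
    exact ⟨d, hd, fun hdc => hxc (by rw [hdc]), hx, hx'⟩
  ty := by
    rintro t ht _ ⟨σ, hσ, rfl⟩ j hj
    change col m 5 ∈ σ (nod 0) (slt j) ↔ _
    rw [col_five, nod_zero, h.ty _ σ hσ (slt j)]
    exact ty_rows t ht j hj
  biex := by
    rintro t - t' - _ _ ⟨σ, hσ, rfl⟩ ⟨σ', hσ', rfl⟩ p - j - j' - h1 h2
    have h3 := h.biex _ σ hσ _ σ' hσ' (nod p) (slt j) (slt j') (sub_of h1) (sub_of h2)
    rw [Set.not_disjoint_iff] at h3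
    obtain ⟨x, hx, hx'⟩ := h3
    obtain ⟨c, hc, rfl⟩ := col_surj m x
    exact ⟨c, hc, hx, hx'⟩
  deg := by
    intro p _ a ha b hb c hc d hd ab ac ad bc bd cd h1 h2 h3 h4
    obtain ⟨x, y, hx, hy, hxa, hya, hxy, hE⟩ := h.deg (nod p)
      (four_le ha hb hc hd ab ac ad bc bd cd h1 h2 h3 h4) _ h1
    obtain ⟨x, hx6, rfl⟩ := col_surj m x
    obtain ⟨y, hy6, rfl⟩ := col_surj m y
    have key : ∀ (σ : State) (j z : ℕ), z < 6 → (∀ e < 6, num m σ p j e ↔ e = a ∨ e = z) →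
        σ (nod p) (slt j) = {col m a, col m z} := by
      intro σ j z hz hs
      ext w
      obtain ⟨e, he, rfl⟩ := col_surj m w
      rw [Set.mem_insert_iff, Set.mem_singleton_iff]
      constructor
      · intro hw
        rcases (hs e he).1 hw with h5 | h5
        · exact Or.inl (by rw [h5])
        · exact Or.inr (by rw [h5])
      · rintro (hw | hw)
        · exact (hs e he).2 (Or.inl (col_inj he ha hw))
        · exact (hs e he).2 (Or.inr (col_inj he hz hw))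
    refine ⟨x, hx6, y, hy6, fun h5 => hxa (by rw [h5]), fun h5 => hya (by rw [h5]),
      fun h5 => hxy (by rw [h5]), hx, hy, ?_⟩
    rintro t - _ ⟨σ, hσ, rfl⟩ j -
    exact ⟨fun h5 => (hE _ σ hσ (slt j)).1 (key σ j x hx6 h5),
      fun h5 => (hE _ σ hσ (slt j)).2 (key σ j y hy6 h5)⟩
  r7 := by
    rintro r hr t - t' - _ _ ⟨σ, hσ, rfl⟩ ⟨σ', hσ', rfl⟩ j -
    by_contra hcon
    push Not at hcon
    have h1 : σ' (nod r.2.2) (slt j) ⊆ σ (nod r.1) (slt r.2.1) := sub_of (m := m) hcon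
    obtain ⟨k, ⟨e1, e2, e3⟩ | ⟨e1, e2, e3⟩ | ⟨e1, e2, e3⟩ | ⟨e1, e2, e3⟩⟩ := in_rows r hr
    · rw [e1, e2, e3] at h1; exact h.r7z _ σ hσ _ σ' hσ' k _ h1
    · rw [e1, e2, e3] at h1; exact h.r7v _ σ hσ _ σ' hσ' k _ h1
    · rw [e1, e2, e3] at h1; exact h.r7r _ σ hσ _ σ' hσ' k _ h1
    · rw [e1, e2, e3] at h1; exact h.r7l _ σ hσ _ σ' hσ' k _ h1
  s3 := by
    intro a ha
    have ham : col m a ≠ m := fun h1 => by
      have := col_inj (m := m) (by omega : a < 6) (by norm_num : (5 : ℕ) < 6) (h1.trans (col_five m).symm)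
      omega
    obtain ⟨I, hI, hreg⟩ := h.s3 _ ham
    obtain ⟨g, hg, hgI⟩ : ∃ g < 12, ∀ K : Fin 6, inReg g K.val = true ↔ I K := by
      rcases hreg with ⟨w, hw⟩ | ⟨w, hw⟩
      · exact ⟨w.val, by omega, fun K => (inReg_sec w K).trans (hw K).symm⟩
      · exact ⟨6 + w.val, by omega, fun K => (inReg_cusp w K).trans (hw K).symm⟩
    refine ⟨g, hg, fun r hr => ?_⟩
    obtain ⟨K, ⟨e1, e2, e3⟩ | ⟨e1, e2, e3⟩⟩ := reg_rows g hg r hr
    · by_cases hK : I K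
      · rw [(hgI K).2 hK] at e3
        obtain ⟨τ, hτ, h1⟩ := nn_num (m := m) e1 e2 e3 ((hI K).2 hK).1
        exact ⟨τ, hτ, h1 a rfl⟩
      · rw [Bool.eq_false_iff.2 fun h5 => hK ((hgI K).1 h5)] at e3
        obtain ⟨τ, hτ, h1⟩ := nn_num (m := m) e1 e2 e3 ((hI K).1 hK).1
        exact ⟨τ, hτ, h1 a rfl⟩
    · by_cases hK : I K
      · rw [(hgI K).2 hK] at e3
        obtain ⟨τ, hτ, h1⟩ := nn_num (m := m) e1 e2 e3 ((hI K).2 hK).2
        exact ⟨τ, hτ, h1 a rfl⟩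
      · rw [Bool.eq_false_iff.2 fun h5 => hK ((hgI K).1 h5)] at e3
        obtain ⟨τ, hτ, h1⟩ := nn_num (m := m) e1 e2 e3 ((hI K).1 hK).2
        exact ⟨τ, hτ, h1 a rfl⟩
  s12 := by
    rintro r hr _ ⟨σ, hσ, rfl⟩
    suffices H : ∃ τ, QQ m Q r.2.2.2.2.2 τ ∧
        ∀ c, col m c ∈ σ (nod r.1) (slt r.2.1) → ¬ τ r.2.2.2.1 r.2.2.2.2.1 c by
      obtain ⟨τ, hτ, h1⟩ := H
      exact ⟨τ, hτ, fun c _ hc => h1 c hc⟩
    obtain ⟨k, t, e1, e2, h1⟩ := av_rows r hr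
    rw [e2] at hσ
    rw [e1]
    rcases h1 with ⟨e3, K, hK1, hK2, h4⟩ | ⟨e3, h4⟩ | ⟨e3, h4⟩
    · rw [e3]
      have hC := h.s1 t σ hσ k K hK1 hK2
      rcases h4 with ⟨e4, e5, e6⟩ | ⟨e4, e5, e6⟩
      · by_cases hin : (if t = true then K = k + 4 ∨ K = k + 5 else K = k + 1 ∨ K = k + 2)
        · refine nn_num e4 e5 (e6.trans ?_) (hC.2 hin).1
          cases t
          · simp only [Bool.false_eq_true, if_false] at hin ⊢; simp [hin]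
          · simp only [if_true] at hin ⊢; simp [hin]
        · refine nn_num e4 e5 (e6.trans ?_) (hC.1 hin).1
          cases t
          · simp only [Bool.false_eq_true, if_false] at hin ⊢; simp [hin]
          · simp only [if_true] at hin ⊢; simp [hin]
      · by_cases hin : (if t = true then K = k + 4 ∨ K = k + 5 else K = k + 1 ∨ K = k + 2)
        · refine nn_num e4 e5 (e6.trans ?_) (hC.2 hin).2
          cases t
          · simp only [Bool.false_eq_true, if_false] at hin ⊢; simp [hin]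
          · simp only [if_true] at hin ⊢; simp [hin]
        · refine nn_num e4 e5 (e6.trans ?_) (hC.1 hin).2
          cases t
          · simp only [Bool.false_eq_true, if_false] at hin ⊢; simp [hin]
          · simp only [if_true] at hin ⊢; simp [hin]
    · rw [e3]
      obtain ⟨g1, g2, g3, g4, g5⟩ := h.s2r t σ hσ k
      rcases h4 with ⟨e4, e5, e6⟩ | ⟨e4, e5, e6⟩ | ⟨e4, e5, e6⟩ | ⟨e4, e5, e6⟩ | ⟨e4, e5, e6⟩
      exacts [nn_num e4 e5 e6 g1, nn_num e4 e5 e6 g2, nn_num e4 e5 e6 g3, nn_num e4 e5 e6 g4,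
        nn_num e4 e5 e6 g5]
    · rw [e3]
      obtain ⟨g1, g2, g3, g4, g5⟩ := h.s2l t σ hσ k
      rcases h4 with ⟨e4, e5, e6⟩ | ⟨e4, e5, e6⟩ | ⟨e4, e5, e6⟩ | ⟨e4, e5, e6⟩ | ⟨e4, e5, e6⟩
      exacts [nn_num e4 e5 e6 g1, nn_num e4 e5 e6 g2, nn_num e4 e5 e6 g3, nn_num e4 e5 e6 g4,
        nn_num e4 e5 e6 g5]

/-- **From the numbers to `SysJ`.** -/
theorem no_sysJ (F : ∀ T Q, Fr T Q → False) : ∀ m N Q, SysJ m N Q → False :=
  fun _ _ _ h => F _ _ h.fr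

/-- **From the numbers to `SysI`.** -/
theorem no_sysI (F : ∀ T Q, Fr T Q → False) : ∀ m N Q, H89.SysI m N Q → False :=
  fun _ _ _ h => F _ _ (SysJ.of h).fr

end Vale.Agent.P032.H283
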